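import Vale.Agent.P159.TM.H818.Cum3
import Vale.Agent.P159.TM.H104.Mass
import Vale.Agent.P159.TM.H871.Inst

/-!
Row B5 of P159, in the letters of `H104/Mass.lean` (`U, ddU, dddU`) and `H871/Inst.lean` (`kap`):
the third derivative of `U` at an arbitrary real background is bounded by the square root of a
covariance; clustering of the third derivative from clustering of the covariances.
-/

namespace Vale.Agent.P159.TM.H818

open Vale.Agent.P159.TM.H870 Vale.Agent.P159.T1.H897
open Vale.Agent.P159.TM.H104 (Cf K3f dddU ddU)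

variable {V : Type*} [Fintype V] {w : (V → ℤ) → ℝ} {m : V → ℝ} {Wb D : ℝ}

/-- `E1` from the bound of `H871/Inst.lean` -/
theorem E1_kap (hW : H871.Wt w) (hm : ∀ x, 0 < m x) (hs : ∀ h, w (h + 1) = w h)
    (hS : H871.Sup w) (hev : ∀ h, w (-h) = w h) (hG : H871.Gin w m) :
    E1 w m (H871.kap w m) := by
  intro f g
  have h1 := H871.mgf_kap hW hm hs hS hev hG f g
  have hZ : 0 < Zr w m f := hW.Z_pos hm f
  have e1 : (Ex w m f fun h => Real.exp (ln g h)) * (Ex w m f fun h => Real.exp (-ln g h)) =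
      ((∑' h : V → ℤ, w h * H871.gs m f h * Real.exp (∑ x, g x * (h x : ℝ))) *
        (∑' h : V → ℤ, w h * H871.gs m f h * Real.exp (-∑ x, g x * (h x : ℝ)))) /
          Zr w m f ^ 2 := by
    unfold Ex
    rw [div_mul_div_comm, ← pow_two]
    rfl
  rw [e1, div_le_iff₀ (by positivity)]
  refine h1.trans (le_of_eq ?_)
  have e2 : H871.Z w m f = Zr w m f := rfl
  rw [e2, add_comm (∑ x, g x ^ 2 / m x)]

section

variable [DecidableEq V]

lemma K3f_eq_k3 (hm : ∀ x, 0 < m x) (hw0 : ∀ h, 0 ≤ w h) (hwb : ∀ h, w h ≤ Wb) (f : V → ℝ)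
    (hZ : 0 < Zr w m f) (a b c : V → ℝ) :
    K3f w m f (ln a) (ln b) (ln c) = k3 w m f a b c := by
  set α := Ex w m f (ln a) with hα
  set β := Ex w m f (ln b) with hβ
  set γ := Ex w m f (ln c) with hγ
  have ga := Gro.ln a
  have gb := Gro.ln b
  have gc := Gro.ln c
  have gab := ga.mul gb
  have gac := ga.mul gc
  have gbc := gb.mul gc
  have gabc := gab.mul gc
  have k1 := (Gro.const (V := V) (-γ)).mul gab
  have k2 := (Gro.const (V := V) (-β)).mul gac
  have k3' := (Gro.const (V := V) (-α)).mul gbc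
  have k4 := (Gro.const (V := V) (β * γ)).mul ga
  have k5 := (Gro.const (V := V) (α * γ)).mul gb
  have k6 := (Gro.const (V := V) (α * β)).mul gc
  have k7 := Gro.const (V := V) (-(α * β * γ))
  have e1 : (Ex w m f fun h => (ln a h - α) * (ln b h - β) * (ln c h - γ)) =
      Ex w m f fun h => ((ln a h * ln b h * ln c h + (-γ) * (ln a h * ln b h)) +
        ((-β) * (ln a h * ln c h) + (-α) * (ln b h * ln c h))) +
        ((β * γ * ln a h + α * γ * ln b h) + (α * β * ln c h + -(α * β * γ))) := by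
    congr 1
    funext h
    ring
  unfold k3 K3f
  rw [← hα, ← hβ, ← hγ, e1,
    Ex_add hm hw0 hwb f ((gabc.add k1).add (k2.add k3')) ((k4.add k5).add (k6.add k7)),
    Ex_add hm hw0 hwb f (gabc.add k1) (k2.add k3'), Ex_add hm hw0 hwb f gabc k1,
    Ex_add hm hw0 hwb f k2 k3', Ex_add hm hw0 hwb f (k4.add k5) (k6.add k7),
    Ex_add hm hw0 hwb f k4 k5, Ex_add hm hw0 hwb f k6 k7, Ex_smul, Ex_smul, Ex_smul, Ex_smul,
    Ex_smul, Ex_smul, Ex_const f hZ, ← hα, ← hβ, ← hγ]
  ring

/-- the third derivative of `U` and the covariance -/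
theorem dddU_sq_le (hm : ∀ x, 0 < m x) (hw0 : ∀ h, 0 ≤ w h) (hwb : ∀ h, w h ≤ Wb)
    (hL : Hol w w) (hZ : ∀ f, 0 < Zr w m f) (hE : E1 w m D) (f u v z : V → ℝ) {t : ℝ}
    (ht : 0 < t) (hu : t ^ 2 * ∑ x, m x * u x ^ 2 ≤ 1) (hv : t ^ 2 * ∑ x, m x * v x ^ 2 ≤ 1)
    (hz : t ^ 2 * ∑ x, m x * z x ^ 2 ≤ 1) :
    dddU w m f u v z ^ 2 ≤ 4 * Real.exp (3 * (D + 1)) / t ^ 4 *
      Cf w m f (lin m fun x => |v x|) (lin m fun x => |z x|) := by
  have key : ∀ u : V → ℝ, ∑ x, (m x * u x) ^ 2 / m x = ∑ x, m x * u x ^ 2 := by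
    intro u
    refine Finset.sum_congr rfl fun x _ => ?_
    have := (hm x).ne'
    field_simp
  have h1 := k3_bound hm hw0 hwb hL hZ hE f (fun x => m x * u x) (fun x => m x * v x)
    (fun x => m x * z x) ht (by rw [key]; exact hu) (by rw [key]; exact hv)
    (by rw [key]; exact hz)
  have e1 : k3 w m f (fun x => m x * u x) (fun x => m x * v x) (fun x => m x * z x) =
      K3f w m f (lin m u) (lin m v) (lin m z) :=
    (K3f_eq_k3 hm hw0 hwb f (hZ f) _ _ _).symm
  have e2 : (fun x => |m x * v x|) = fun x => m x * |v x| := by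
    funext x
    rw [abs_mul, abs_of_pos (hm x)]
  have e3 : (fun x => |m x * z x|) = fun x => m x * |z x| := by
    funext x
    rw [abs_mul, abs_of_pos (hm x)]
  rw [e1, e2, e3] at h1
  unfold dddU
  rw [neg_sq]
  exact h1

omit [DecidableEq V] in
lemma dddU_swap12 (f u v z : V → ℝ) : dddU w m f u v z = dddU w m f v u z := by
  unfold dddU K3f
  have e : (fun h => lin m v h * lin m u h * lin m z h) =
      fun h => lin m u h * lin m v h * lin m z h := by
    funext h
    ring
  have e' : (fun h => lin m v h * lin m u h) = fun h => lin m u h * lin m v h := by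
    funext h
    ring
  rw [e, e']
  ring

omit [DecidableEq V] in
lemma dddU_swap23 (f u v z : V → ℝ) : dddU w m f u v z = dddU w m f u z v := by
  unfold dddU K3f
  have e : (fun h => lin m u h * lin m z h * lin m v h) =
      fun h => lin m u h * lin m v h * lin m z h := by
    funext h
    ring
  have e' : (fun h => lin m z h * lin m v h) = fun h => lin m v h * lin m z h := by
    funext h
    ring
  rw [e, e']
  ring

/-- a test function bounded by one and carried by the ball of radius `r` around `x0` -/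
def Near (d : V → V → ℝ) (r : ℝ) (x0 : V) (u : V → ℝ) : Prop :=
  (∀ x, |u x| ≤ 1) ∧ ∀ x, r < d x0 x → u x = 0

omit [Fintype V] [DecidableEq V] in
lemma Near.abs {d : V → V → ℝ} {r : ℝ} {x0 : V} {u : V → ℝ} (h : Near d r x0 u) :
    Near d r x0 fun x => |u x| :=
  ⟨fun x => by rw [abs_abs]; exact h.1 x, fun x hx => by
    change |u x| = 0
    rw [h.2 x hx, abs_zero]⟩

/-- **Row B5 (input of part C).**  In one real background `f`: clustering of the covariances of
functionals carried by balls implies clustering of the third derivative of `U`, with the largest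
of the three distances. -/
theorem third_clus (hm : ∀ x, 0 < m x) (hw0 : ∀ h, 0 ≤ w h) (hwb : ∀ h, w h ≤ Wb)
    (hL : Hol w w) (hZ : ∀ f, 0 < Zr w m f) (hE : E1 w m D) {t : ℝ} (ht : 0 < t)
    {d : V → V → ℝ} {r Cb cb : ℝ} (hCb : 0 ≤ Cb)
    (hvol : ∀ x0 u, Near d r x0 u → t ^ 2 * ∑ x, m x * u x ^ 2 ≤ 1) (f : V → ℝ)
    (hcl : ∀ x0 y0 u v, Near d r x0 u → Near d r y0 v →
      |Cf w m f (lin m u) (lin m v)| ≤ Cb * Real.exp (-(cb * d x0 y0)))
    {x0 y0 z0 : V} {u v z : V → ℝ} (hu : Near d r x0 u) (hv : Near d r y0 v)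
    (hz : Near d r z0 z) :
    |dddU w m f u v z| ≤ 2 * Real.exp (3 * (D + 1) / 2) / t ^ 2 * Real.sqrt Cb *
      Real.exp (-(cb / 2 * max (d x0 y0) (max (d y0 z0) (d x0 z0)))) := by
  have key : ∀ (x0 y0 z0 : V) (u v z : V → ℝ), Near d r x0 u → Near d r y0 v → Near d r z0 z →
      |dddU w m f u v z| ≤ 2 * Real.exp (3 * (D + 1) / 2) / t ^ 2 * Real.sqrt Cb *
        Real.exp (-(cb / 2 * d y0 z0)) := by
    intro x0 y0 z0 u v z hu hv hz
    have h1 := dddU_sq_le hm hw0 hwb hL hZ hE f u v z ht (hvol x0 u hu) (hvol y0 v hv)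
      (hvol z0 z hz)
    have h2 := (le_abs_self _).trans (hcl y0 z0 _ _ hv.abs hz.abs)
    refine abs_le_of_sq_le_sq (h1.trans ?_) (by positivity)
    · have h3 : 4 * Real.exp (3 * (D + 1)) / t ^ 4 *
          Cf w m f (lin m fun x => |v x|) (lin m fun x => |z x|) ≤
          4 * Real.exp (3 * (D + 1)) / t ^ 4 * (Cb * Real.exp (-(cb * d y0 z0))) :=
        mul_le_mul_of_nonneg_left h2 (by positivity)
      refine h3.trans (le_of_eq ?_)
      have e1 : Real.exp (3 * (D + 1)) = Real.exp (3 * (D + 1) / 2) ^ 2 := by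
        rw [← Real.exp_nat_mul]
        congr 1
        push_cast
        ring
      have e2 : Real.exp (-(cb * d y0 z0)) = Real.exp (-(cb / 2 * d y0 z0)) ^ 2 := by
        rw [← Real.exp_nat_mul]
        congr 1
        push_cast
        ring
      have e3 : Real.sqrt Cb ^ 2 = Cb := Real.sq_sqrt hCb
      rw [e1, e2]
      calc _ = (2 * Real.exp (3 * (D + 1) / 2) / t ^ 2) ^ 2 * Cb *
            Real.exp (-(cb / 2 * d y0 z0)) ^ 2 := by field_simp; ring
        _ = (2 * Real.exp (3 * (D + 1) / 2) / t ^ 2) ^ 2 * Real.sqrt Cb ^ 2 *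
            Real.exp (-(cb / 2 * d y0 z0)) ^ 2 := by rw [e3]
        _ = _ := by ring
  rcases max_choice (d x0 y0) (max (d y0 z0) (d x0 z0)) with h | h
  · rw [h]
    have h1 := key z0 x0 y0 z u v hz hu hv
    have e1 : dddU w m f z u v = dddU w m f u v z := by
      rw [dddU_swap12, dddU_swap23]
    rwa [e1] at h1
  · rw [h]
    rcases max_choice (d y0 z0) (d x0 z0) with h' | h'
    · rw [h']
      exact key x0 y0 z0 u v z hu hv hz
    · rw [h']
      have h1 := key y0 x0 z0 v u z hv hu hz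
      rwa [dddU_swap12] at h1

end

end Vale.Agent.P159.TM.H818
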