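import Vale.Agent.P159.TM.H870.Strip
import Vale.Agent.P159.T1.H897.Fkg

/-!
Row B5 of P159: third cumulants of the heights in an arbitrary real background.

The letters are those of `H870/Strip.lean`: a weight `w ≥ 0` on the heights `V → ℤ`, masses
`m x > 0`, a real background `f`.  The weight satisfies the lattice condition `Hol w w`.
-/

open Set Filter Topology

namespace Vale.Agent.P159.TM.H818

open Vale.Agent.P159.TM.H870 Vale.Agent.P159.T1.H897

variable {V : Type*} [Fintype V]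

section growth

/-- the size of a height function -/
def sz (h : V → ℤ) : ℝ := ∑ x, |(h x : ℝ)|

lemma sz_nonneg (h : V → ℤ) : 0 ≤ sz h := Finset.sum_nonneg fun _ _ => abs_nonneg _

lemma abs_le_sz (h : V → ℤ) (x : V) : |(h x : ℝ)| ≤ sz h :=
  Finset.single_le_sum (f := fun x => |(h x : ℝ)|) (fun _ _ => abs_nonneg _) (Finset.mem_univ x)

lemma sz_add (h k : V → ℤ) : sz (h + k) ≤ sz h + sz k := by
  unfold sz
  rw [← Finset.sum_add_distrib]
  refine Finset.sum_le_sum fun x _ => ?_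
  rw [Pi.add_apply]
  push_cast
  exact abs_add_le _ _

/-- at most exponential growth -/
def Gro (Y : (V → ℤ) → ℝ) : Prop := ∃ A B : ℝ, 0 ≤ A ∧ 0 ≤ B ∧ ∀ h, |Y h| ≤ A * Real.exp (B * sz h)

lemma Gro.const (c : ℝ) : Gro fun _ : V → ℤ => c :=
  ⟨|c|, 0, abs_nonneg _, le_rfl, fun h => by simp⟩

lemma Gro.add {Y Y' : (V → ℤ) → ℝ} (h : Gro Y) (h' : Gro Y') : Gro fun k => Y k + Y' k := by
  obtain ⟨A, B, hA, hB, h1⟩ := h
  obtain ⟨A', B', hA', hB', h2⟩ := h'
  refine ⟨A + A', B + B', by positivity, by positivity, fun k => ?_⟩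
  have hs := sz_nonneg k
  have e1 : Real.exp (B * sz k) ≤ Real.exp ((B + B') * sz k) :=
    Real.exp_le_exp.2 (by nlinarith [mul_nonneg hB' hs])
  have e2 : Real.exp (B' * sz k) ≤ Real.exp ((B + B') * sz k) :=
    Real.exp_le_exp.2 (by nlinarith [mul_nonneg hB hs])
  calc |Y k + Y' k| ≤ |Y k| + |Y' k| := abs_add_le _ _
    _ ≤ A * Real.exp (B * sz k) + A' * Real.exp (B' * sz k) := add_le_add (h1 k) (h2 k)
    _ ≤ A * Real.exp ((B + B') * sz k) + A' * Real.exp ((B + B') * sz k) :=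
        add_le_add (mul_le_mul_of_nonneg_left e1 hA) (mul_le_mul_of_nonneg_left e2 hA')
    _ = _ := by ring

lemma Gro.mul {Y Y' : (V → ℤ) → ℝ} (h : Gro Y) (h' : Gro Y') : Gro fun k => Y k * Y' k := by
  obtain ⟨A, B, hA, hB, h1⟩ := h
  obtain ⟨A', B', hA', hB', h2⟩ := h'
  refine ⟨A * A', B + B', by positivity, by positivity, fun k => ?_⟩
  rw [abs_mul]
  calc |Y k| * |Y' k| ≤ A * Real.exp (B * sz k) * (A' * Real.exp (B' * sz k)) :=
        mul_le_mul (h1 k) (h2 k) (abs_nonneg _) (by positivity)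
    _ = A * A' * (Real.exp (B * sz k) * Real.exp (B' * sz k)) := by ring
    _ = _ := by rw [← Real.exp_add]; ring_nf

lemma Gro.of_le {Y Y' : (V → ℤ) → ℝ} (h : Gro Y') (hle : ∀ k, |Y k| ≤ |Y' k|) : Gro Y := by
  obtain ⟨A, B, hA, hB, h1⟩ := h
  exact ⟨A, B, hA, hB, fun k => (hle k).trans (h1 k)⟩

lemma Gro.congr {Y Y' : (V → ℤ) → ℝ} (h : Gro Y') (hle : ∀ k, Y k = Y' k) : Gro Y :=
  h.of_le fun k => by rw [hle k]

lemma Gro.neg {Y : (V → ℤ) → ℝ} (h : Gro Y) : Gro fun k => -Y k :=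
  h.of_le fun k => by rw [abs_neg]

lemma Gro.sub {Y Y' : (V → ℤ) → ℝ} (h : Gro Y) (h' : Gro Y') : Gro fun k => Y k - Y' k :=
  (h.add h'.neg).congr fun k => by ring

lemma Gro.pow {Y : (V → ℤ) → ℝ} (h : Gro Y) (n : ℕ) : Gro fun k => Y k ^ n := by
  induction n with
  | zero => simpa using Gro.const (V := V) 1
  | succ n ih => exact (ih.mul h).congr fun k => pow_succ _ _

/-- a linear functional of the heights -/
def ln (a : V → ℝ) (h : V → ℤ) : ℝ := ∑ x, a x * (h x : ℝ)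

lemma ln_add (a : V → ℝ) (h k : V → ℤ) : ln a (h + k) = ln a h + ln a k := by
  unfold ln
  rw [← Finset.sum_add_distrib]
  refine Finset.sum_congr rfl fun x _ => ?_
  rw [Pi.add_apply]
  push_cast
  ring

lemma abs_ln_le (a : V → ℝ) (h : V → ℤ) : |ln a h| ≤ (∑ x, |a x|) * sz h := by
  unfold ln
  refine (Finset.abs_sum_le_sum_abs _ _).trans ?_
  rw [Finset.sum_mul]
  refine Finset.sum_le_sum fun x _ => ?_
  rw [abs_mul]
  exact mul_le_mul_of_nonneg_left (abs_le_sz h x) (abs_nonneg _)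

lemma Gro.coord (x : V) : Gro fun h : V → ℤ => (h x : ℝ) := by
  refine ⟨1, 1, by norm_num, by norm_num, fun h => ?_⟩
  have h1 := abs_le_sz h x
  have h2 := Real.add_one_le_exp (sz h)
  rw [one_mul, one_mul]
  linarith

lemma Gro.ln (a : V → ℝ) : Gro (ln a) := by
  refine ⟨∑ x, |a x|, 1, Finset.sum_nonneg fun _ _ => abs_nonneg _, by norm_num, fun h => ?_⟩
  refine (abs_ln_le a h).trans ?_
  refine mul_le_mul_of_nonneg_left ?_ (Finset.sum_nonneg fun _ _ => abs_nonneg _)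
  have h2 := Real.add_one_le_exp (sz h)
  rw [one_mul]
  linarith

lemma Gro.exp_ln (a : V → ℝ) (t : ℝ) : Gro fun h => Real.exp (t * H818.ln a h) := by
  refine ⟨1, |t| * ∑ x, |a x|, by norm_num,
    mul_nonneg (abs_nonneg _) (Finset.sum_nonneg fun _ _ => abs_nonneg _), fun h => ?_⟩
  rw [abs_of_pos (Real.exp_pos _), one_mul]
  refine Real.exp_le_exp.2 ?_
  calc t * H818.ln a h ≤ |t * H818.ln a h| := le_abs_self _
    _ = |t| * |H818.ln a h| := abs_mul _ _
    _ ≤ |t| * ((∑ x, |a x|) * sz h) := mul_le_mul_of_nonneg_left (abs_ln_le a h) (abs_nonneg _)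
    _ = _ := by ring

end growth

section summability

variable [DecidableEq V] {w : (V → ℤ) → ℝ} {m : V → ℝ} {Wb : ℝ}

/-- the unnormalised measure -/
noncomputable def mu (w : (V → ℤ) → ℝ) (m f : V → ℝ) (h : V → ℤ) : ℝ := w h * gr m h f

omit [DecidableEq V] in
lemma gr_le_one (hm : ∀ x, 0 < m x) (h : V → ℤ) (f : V → ℝ) : gr m h f ≤ 1 := by
  unfold gr
  rw [Real.exp_le_one_iff, neg_nonpos]
  exact Finset.sum_nonneg fun x _ => mul_nonneg (by have := hm x; positivity) (sq_nonneg _)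

omit [DecidableEq V] in
lemma mu_nonneg (hw0 : ∀ h, 0 ≤ w h) (f : V → ℝ) (h : V → ℤ) : 0 ≤ mu w m f h :=
  mul_nonneg (hw0 h) (gr_pos _ _ _).le

omit [DecidableEq V] in
lemma mu_le (hm : ∀ x, 0 < m x) (hw0 : ∀ h, 0 ≤ w h) (hwb : ∀ h, w h ≤ Wb) (f : V → ℝ)
    (h : V → ℤ) : mu w m f h ≤ Wb := by
  unfold mu
  have h1 := gr_le_one hm h f
  have h2 := (gr_pos m h f).le
  calc w h * gr m h f ≤ w h * 1 := mul_le_mul_of_nonneg_left h1 (hw0 h)
    _ ≤ Wb := by rw [mul_one]; exact hwb h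

lemma summable_exp (hm : ∀ x, 0 < m x) (hw0 : ∀ h, 0 ≤ w h) (hwb : ∀ h, w h ≤ Wb) (f : V → ℝ)
    {B : ℝ} (hB : 0 ≤ B) : Summable fun h : V → ℤ => mu w m f h * Real.exp (B * sz h) := by
  have hWb : 0 ≤ Wb := (hw0 0).trans (hwb 0)
  have h1 := summable_pi_prod (V := V)
    (g := fun x k => Real.exp (B ^ 2 / m x + B * |f x|) *
      Real.exp (-(m x / 4 * ((k : ℝ) - f x) ^ 2)))
    (fun x k => by positivity)
    fun x => (summable_gauss (by have := hm x; positivity) (f x)).mul_left _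
  refine Summable.of_nonneg_of_le (fun h => mul_nonneg (mu_nonneg hw0 f h) (Real.exp_pos _).le)
    (fun h => ?_) (h1.mul_left Wb)
  unfold mu gr sz
  rw [mul_assoc, ← Real.exp_add]
  refine mul_le_mul (hwb h) ?_ (Real.exp_pos _).le hWb
  simp only [← Real.exp_add]
  rw [← Real.exp_sum]
  refine Real.exp_le_exp.2 ?_
  rw [Finset.mul_sum, ← Finset.sum_neg_distrib, ← Finset.sum_add_distrib]
  refine Finset.sum_le_sum fun x _ => ?_
  have hmx := hm x
  have h2 : |(h x : ℝ)| ≤ |(h x : ℝ) - f x| + |f x| := by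
    have := abs_add_le ((h x : ℝ) - f x) (f x)
    rwa [sub_add_cancel] at this
  have h3 : B * |(h x : ℝ) - f x| ≤ B ^ 2 / m x + m x / 4 * ((h x : ℝ) - f x) ^ 2 := by
    rw [← sq_abs ((h x : ℝ) - f x)]
    set u := |(h x : ℝ) - f x|
    have h4 : B ^ 2 / m x + m x / 4 * u ^ 2 - B * u = (B - m x / 2 * u) ^ 2 / m x := by
      field_simp
      ring
    have h5 : 0 ≤ (B - m x / 2 * u) ^ 2 / m x := by positivity
    linarith
  nlinarith [mul_le_mul_of_nonneg_left h2 hB]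

lemma summable_gro (hm : ∀ x, 0 < m x) (hw0 : ∀ h, 0 ≤ w h) (hwb : ∀ h, w h ≤ Wb) (f : V → ℝ)
    {Y : (V → ℤ) → ℝ} (hY : Gro Y) : Summable fun h : V → ℤ => mu w m f h * Y h := by
  obtain ⟨A, B, hA, hB, h1⟩ := hY
  refine Summable.of_norm_bounded ((summable_exp hm hw0 hwb f hB).mul_left A) fun h => ?_
  rw [Real.norm_eq_abs, abs_mul, abs_of_nonneg (mu_nonneg hw0 f h)]
  calc mu w m f h * |Y h| ≤ mu w m f h * (A * Real.exp (B * sz h)) :=
        mul_le_mul_of_nonneg_left (h1 h) (mu_nonneg hw0 f h)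
    _ = _ := by ring

/-- at most exponential growth for functions of two heights -/
def Gro2 (G : (V → ℤ) × (V → ℤ) → ℝ) : Prop :=
  ∃ A B : ℝ, 0 ≤ A ∧ 0 ≤ B ∧ ∀ p, |G p| ≤ A * (Real.exp (B * sz p.1) * Real.exp (B * sz p.2))

omit [DecidableEq V] in
lemma Gro.prod {Y Y' : (V → ℤ) → ℝ} (h : Gro Y) (h' : Gro Y') :
    Gro2 fun p => Y p.1 * Y' p.2 := by
  obtain ⟨A, B, hA, hB, h1⟩ := h
  obtain ⟨A', B', hA', hB', h2⟩ := h'
  refine ⟨A * A', B + B', by positivity, by positivity, fun p => ?_⟩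
  have hs := sz_nonneg p.1
  have hs' := sz_nonneg p.2
  have e1 : Real.exp (B * sz p.1) ≤ Real.exp ((B + B') * sz p.1) :=
    Real.exp_le_exp.2 (by nlinarith [mul_nonneg hB' hs])
  have e2 : Real.exp (B' * sz p.2) ≤ Real.exp ((B + B') * sz p.2) :=
    Real.exp_le_exp.2 (by nlinarith [mul_nonneg hB hs'])
  rw [abs_mul]
  calc |Y p.1| * |Y' p.2| ≤ A * Real.exp (B * sz p.1) * (A' * Real.exp (B' * sz p.2)) :=
        mul_le_mul (h1 _) (h2 _) (abs_nonneg _) (by positivity)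
    _ ≤ A * Real.exp ((B + B') * sz p.1) * (A' * Real.exp ((B + B') * sz p.2)) :=
        mul_le_mul (mul_le_mul_of_nonneg_left e1 hA) (mul_le_mul_of_nonneg_left e2 hA')
          (by positivity) (by positivity)
    _ = _ := by ring

omit [DecidableEq V] in
lemma Gro2.add {G G' : (V → ℤ) × (V → ℤ) → ℝ} (h : Gro2 G) (h' : Gro2 G') :
    Gro2 fun p => G p + G' p := by
  obtain ⟨A, B, hA, hB, h1⟩ := h
  obtain ⟨A', B', hA', hB', h2⟩ := h'
  refine ⟨A + A', B + B', by positivity, by positivity, fun p => ?_⟩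
  have hs := sz_nonneg p.1
  have hs' := sz_nonneg p.2
  have e1 : Real.exp (B * sz p.1) ≤ Real.exp ((B + B') * sz p.1) :=
    Real.exp_le_exp.2 (by nlinarith [mul_nonneg hB' hs])
  have e2 : Real.exp (B * sz p.2) ≤ Real.exp ((B + B') * sz p.2) :=
    Real.exp_le_exp.2 (by nlinarith [mul_nonneg hB' hs'])
  have e3 : Real.exp (B' * sz p.1) ≤ Real.exp ((B + B') * sz p.1) :=
    Real.exp_le_exp.2 (by nlinarith [mul_nonneg hB hs])
  have e4 : Real.exp (B' * sz p.2) ≤ Real.exp ((B + B') * sz p.2) :=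
    Real.exp_le_exp.2 (by nlinarith [mul_nonneg hB hs'])
  have f1 := mul_le_mul e1 e2 (Real.exp_pos _).le (Real.exp_pos _).le
  have f2 := mul_le_mul e3 e4 (Real.exp_pos _).le (Real.exp_pos _).le
  calc |G p + G' p| ≤ |G p| + |G' p| := abs_add_le _ _
    _ ≤ A * (Real.exp (B * sz p.1) * Real.exp (B * sz p.2)) +
        A' * (Real.exp (B' * sz p.1) * Real.exp (B' * sz p.2)) := add_le_add (h1 p) (h2 p)
    _ ≤ A * (Real.exp ((B + B') * sz p.1) * Real.exp ((B + B') * sz p.2)) +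
        A' * (Real.exp ((B + B') * sz p.1) * Real.exp ((B + B') * sz p.2)) :=
        add_le_add (mul_le_mul_of_nonneg_left f1 hA) (mul_le_mul_of_nonneg_left f2 hA')
    _ = _ := by ring

omit [DecidableEq V] in
lemma Gro2.mul {G G' : (V → ℤ) × (V → ℤ) → ℝ} (h : Gro2 G) (h' : Gro2 G') :
    Gro2 fun p => G p * G' p := by
  obtain ⟨A, B, hA, hB, h1⟩ := h
  obtain ⟨A', B', hA', hB', h2⟩ := h'
  refine ⟨A * A', B + B', by positivity, by positivity, fun p => ?_⟩
  rw [abs_mul]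
  calc |G p| * |G' p| ≤ A * (Real.exp (B * sz p.1) * Real.exp (B * sz p.2)) *
        (A' * (Real.exp (B' * sz p.1) * Real.exp (B' * sz p.2))) :=
        mul_le_mul (h1 p) (h2 p) (abs_nonneg _) (by positivity)
    _ = A * A' * ((Real.exp (B * sz p.1) * Real.exp (B' * sz p.1)) *
        (Real.exp (B * sz p.2) * Real.exp (B' * sz p.2))) := by ring
    _ = _ := by rw [← Real.exp_add, ← Real.exp_add]; ring_nf

omit [DecidableEq V] in
lemma Gro2.congr {G G' : (V → ℤ) × (V → ℤ) → ℝ} (h : Gro2 G') (hle : ∀ p, G p = G' p) :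
    Gro2 G := by
  have : G = G' := funext hle
  rwa [this]

omit [DecidableEq V] in
lemma Gro.fst {Y : (V → ℤ) → ℝ} (h : Gro Y) : Gro2 fun p => Y p.1 :=
  (h.prod (Gro.const 1)).congr fun p => by ring

omit [DecidableEq V] in
lemma Gro.snd {Y : (V → ℤ) → ℝ} (h : Gro Y) : Gro2 fun p => Y p.2 :=
  ((Gro.const 1).prod h).congr fun p => by ring

omit [DecidableEq V] in
lemma Gro2.neg {G : (V → ℤ) × (V → ℤ) → ℝ} (h : Gro2 G) : Gro2 fun p => -G p :=
  ((Gro.const (V := V) (-1)).fst.mul h).congr fun p => by ring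

omit [DecidableEq V] in
lemma Gro2.sub {G G' : (V → ℤ) × (V → ℤ) → ℝ} (h : Gro2 G) (h' : Gro2 G') :
    Gro2 fun p => G p - G' p := (h.add h'.neg).congr fun p => by ring

omit [DecidableEq V] in
/-- a function of the sum of the two heights -/
lemma Gro.sum {Y : (V → ℤ) → ℝ} (h : Gro Y) : Gro2 fun p => Y (p.1 + p.2) := by
  obtain ⟨A, B, hA, hB, h1⟩ := h
  refine ⟨A, B, hA, hB, fun p => (h1 _).trans (mul_le_mul_of_nonneg_left ?_ hA)⟩
  rw [← Real.exp_add]
  refine Real.exp_le_exp.2 ?_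
  have := mul_le_mul_of_nonneg_left (sz_add p.1 p.2) hB
  linarith

/-- the unnormalised measure of two copies -/
noncomputable def T2 (w : (V → ℤ) → ℝ) (m f : V → ℝ) (G : (V → ℤ) × (V → ℤ) → ℝ) : ℝ :=
  ∑' p : (V → ℤ) × (V → ℤ), mu w m f p.1 * mu w m f p.2 * G p

lemma summable_two (hm : ∀ x, 0 < m x) (hw0 : ∀ h, 0 ≤ w h) (hwb : ∀ h, w h ≤ Wb) (f : V → ℝ)
    {G : (V → ℤ) × (V → ℤ) → ℝ} (hG : Gro2 G) :
    Summable fun p : (V → ℤ) × (V → ℤ) => mu w m f p.1 * mu w m f p.2 * G p := by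
  obtain ⟨A, B, hA, hB, h1⟩ := hG
  have h2 := summable_exp hm hw0 hwb f hB
  have h3 := (h2.mul_of_nonneg h2 (fun h => mul_nonneg (mu_nonneg hw0 f h) (Real.exp_pos _).le)
    fun h => mul_nonneg (mu_nonneg hw0 f h) (Real.exp_pos _).le).mul_left A
  refine Summable.of_norm_bounded h3 fun p => ?_
  have e1 := mu_nonneg (m := m) hw0 f p.1
  have e2 := mu_nonneg (m := m) hw0 f p.2
  rw [Real.norm_eq_abs, abs_mul, abs_mul, abs_of_nonneg e1, abs_of_nonneg e2]
  calc mu w m f p.1 * mu w m f p.2 * |G p| ≤ mu w m f p.1 * mu w m f p.2 *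
        (A * (Real.exp (B * sz p.1) * Real.exp (B * sz p.2))) :=
        mul_le_mul_of_nonneg_left (h1 p) (mul_nonneg e1 e2)
    _ = _ := by ring

lemma T2_add (hm : ∀ x, 0 < m x) (hw0 : ∀ h, 0 ≤ w h) (hwb : ∀ h, w h ≤ Wb) (f : V → ℝ)
    {G G' : (V → ℤ) × (V → ℤ) → ℝ} (hG : Gro2 G) (hG' : Gro2 G') :
    T2 w m f (fun p => G p + G' p) = T2 w m f G + T2 w m f G' := by
  unfold T2
  rw [← (summable_two hm hw0 hwb f hG).tsum_add (summable_two hm hw0 hwb f hG')]
  exact tsum_congr fun p => by ring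

lemma T2_sub (hm : ∀ x, 0 < m x) (hw0 : ∀ h, 0 ≤ w h) (hwb : ∀ h, w h ≤ Wb) (f : V → ℝ)
    {G G' : (V → ℤ) × (V → ℤ) → ℝ} (hG : Gro2 G) (hG' : Gro2 G') :
    T2 w m f (fun p => G p - G' p) = T2 w m f G - T2 w m f G' := by
  unfold T2
  rw [← (summable_two hm hw0 hwb f hG).tsum_sub (summable_two hm hw0 hwb f hG')]
  exact tsum_congr fun p => by ring

omit [DecidableEq V] in
lemma T2_smul (f : V → ℝ) (c : ℝ) (G : (V → ℤ) × (V → ℤ) → ℝ) :
    T2 w m f (fun p => c * G p) = c * T2 w m f G := by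
  unfold T2
  rw [← tsum_mul_left]
  exact tsum_congr fun p => by ring

omit [DecidableEq V] in
lemma T2_congr (f : V → ℝ) {G G' : (V → ℤ) × (V → ℤ) → ℝ} (h : ∀ p, G p = G' p) :
    T2 w m f G = T2 w m f G' := by
  have : G = G' := funext h
  rw [this]

/-- the unnormalised measure of one copy -/
noncomputable def T1 (w : (V → ℤ) → ℝ) (m f : V → ℝ) (Y : (V → ℤ) → ℝ) : ℝ :=
  ∑' h : V → ℤ, mu w m f h * Y h

lemma T2_prod (hm : ∀ x, 0 < m x) (hw0 : ∀ h, 0 ≤ w h) (hwb : ∀ h, w h ≤ Wb) (f : V → ℝ)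
    {Y Y' : (V → ℤ) → ℝ} (hY : Gro Y) (hY' : Gro Y') :
    T2 w m f (fun p => Y p.1 * Y' p.2) = T1 w m f Y * T1 w m f Y' := by
  unfold T2 T1
  have h1 := summable_gro hm hw0 hwb f hY
  have h2 := summable_gro hm hw0 hwb f hY'
  rw [h1.tsum_mul_tsum h2 ((summable_two hm hw0 hwb f (hY.prod hY')).congr fun p => by ring)]
  exact tsum_congr fun p => by ring

end summability

section positivity

variable [DecidableEq V] {w : (V → ℤ) → ℝ} {m : V → ℝ} {Wb : ℝ}

omit [DecidableEq V] in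
lemma hol_gr (m f : V → ℝ) : Hol (fun h => gr m h f) fun h => gr m h f := by
  intro x y
  refine le_of_eq ?_
  unfold gr
  rw [← Real.exp_add, ← Real.exp_add, ← neg_add, ← neg_add, ← Finset.sum_add_distrib,
    ← Finset.sum_add_distrib]
  congr 2
  refine Finset.sum_congr rfl fun v _ => ?_
  rw [Pi.inf_apply, Pi.sup_apply]
  rcases le_total (x v) (y v) with h | h
  · rw [inf_eq_left.2 h, sup_eq_right.2 h]
  · rw [inf_eq_right.2 h, sup_eq_left.2 h]
    ring

omit [DecidableEq V] in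
lemma hol_mu (hw0 : ∀ h, 0 ≤ w h) (hL : Hol w w) (f : V → ℝ) :
    Hol (mu w m f) (mu w m f) :=
  Hol.mul hL (hol_gr m f) hw0 hw0 (fun _ => (gr_pos _ _ _).le) fun _ => (gr_pos _ _ _).le

omit [Fintype V] [DecidableEq V] in
/-- reflection of the heights -/
lemma hol_refl {μ : (V → ℤ) → ℝ} (h : Hol μ μ) (s : V → ℤ) :
    Hol (fun k => μ (s - k)) fun k => μ (s - k) := by
  intro x y
  have h1 := h (s - x) (s - y)
  have e1 : (s - x) ⊓ (s - y) = s - (x ⊔ y) := by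
    funext v
    simp only [Pi.inf_apply, Pi.sub_apply, Pi.sup_apply]
    rcases le_total (x v) (y v) with h | h
    · rw [sup_eq_right.2 h, inf_eq_right.2 (by omega)]
    · rw [sup_eq_left.2 h, inf_eq_left.2 (by omega)]
  have e2 : (s - x) ⊔ (s - y) = s - (x ⊓ y) := by
    funext v
    simp only [Pi.inf_apply, Pi.sub_apply, Pi.sup_apply]
    rcases le_total (x v) (y v) with h | h
    · rw [inf_eq_left.2 h, sup_eq_left.2 (by omega)]
    · rw [inf_eq_right.2 h, sup_eq_right.2 (by omega)]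
  rw [e1, e2] at h1
  simp only
  linarith

/-- the law of the first height, given the sum of the two heights -/
noncomputable def nu (w : (V → ℤ) → ℝ) (m f : V → ℝ) (s h : V → ℤ) : ℝ :=
  mu w m f h * mu w m f (s - h)

omit [DecidableEq V] in
lemma nu_nonneg (hw0 : ∀ h, 0 ≤ w h) (f : V → ℝ) (s h : V → ℤ) : 0 ≤ nu w m f s h :=
  mul_nonneg (mu_nonneg hw0 f _) (mu_nonneg hw0 f _)

omit [DecidableEq V] in
lemma nu_symm (f : V → ℝ) (s h : V → ℤ) : nu w m f s (s - h) = nu w m f s h := by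
  unfold nu
  rw [sub_sub_cancel, mul_comm]

lemma summable_nu (hm : ∀ x, 0 < m x) (hw0 : ∀ h, 0 ≤ w h) (hwb : ∀ h, w h ≤ Wb) (f : V → ℝ)
    (s : V → ℤ) {Y : (V → ℤ) → ℝ} (hY : Gro Y) : Summable fun h => nu w m f s h * Y h := by
  have h1 := (summable_gro hm hw0 hwb f hY).norm.mul_left Wb
  refine Summable.of_norm_bounded h1 fun h => ?_
  unfold nu
  rw [Real.norm_eq_abs, Real.norm_eq_abs, abs_mul, abs_mul, abs_mul,
    abs_of_nonneg (mu_nonneg hw0 f (s - h))]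
  have h2 := mu_le hm hw0 hwb f (s - h)
  calc |mu w m f h| * mu w m f (s - h) * |Y h| = mu w m f (s - h) * (|mu w m f h| * |Y h|) := by
        ring
    _ ≤ Wb * (|mu w m f h| * |Y h|) :=
        mul_le_mul_of_nonneg_right h2 (mul_nonneg (abs_nonneg _) (abs_nonneg _))

/-- the centred height, given the sum -/
def ce (s : V → ℤ) (y : V) (h : V → ℤ) : ℝ := 2 * (h y : ℝ) - (s y : ℝ)

omit [DecidableEq V] in
lemma gro_ce (s : V → ℤ) (y : V) : Gro (ce s y) := by
  unfold ce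
  exact (((Gro.const 2).mul (Gro.coord y)).sub (Gro.const _)).congr fun k => rfl

omit [Fintype V] [DecidableEq V] in
lemma ce_mono (s : V → ℤ) (y : V) : Monotone (ce s y) := by
  intro h k hk
  unfold ce
  have h1 : (h y : ℝ) ≤ k y := by exact_mod_cast hk y
  linarith

omit [DecidableEq V] in
lemma tsum_nu_ce (f : V → ℝ) (s : V → ℤ) (y : V) : ∑' h, nu w m f s h * ce s y h = 0 := by
  have h1 := (Equiv.subLeft s).tsum_eq fun h => nu w m f s h * ce s y h
  have h2 : (∑' h, nu w m f s (Equiv.subLeft s h) * ce s y (Equiv.subLeft s h)) =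
      -∑' h, nu w m f s h * ce s y h := by
    rw [← tsum_neg]
    refine tsum_congr fun h => ?_
    rw [Equiv.subLeft_apply, nu_symm]
    unfold ce
    rw [Pi.sub_apply]
    push_cast
    ring
  rw [h2] at h1
  linarith

/-- given the sum of the two heights, the difference is positively correlated -/
lemma inner_nonneg (hm : ∀ x, 0 < m x) (hw0 : ∀ h, 0 ≤ w h) (hwb : ∀ h, w h ≤ Wb)
    (hL : Hol w w) (f : V → ℝ) (s : V → ℤ) (y z : V) :
    0 ≤ ∑' h, nu w m f s h * (ce s y h * ce s z h) := by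
  have hN : Summable fun h => nu w m f s h :=
    (summable_nu hm hw0 hwb f s (Gro.const 1)).congr fun h => mul_one _
  have h1 := fkg_tsum (nu_nonneg hw0 f s) hN (summable_nu hm hw0 hwb f s (gro_ce s y))
    (summable_nu hm hw0 hwb f s (gro_ce s z))
    (summable_nu hm hw0 hwb f s ((gro_ce s y).mul (gro_ce s z)))
    (Hol.mul (hol_mu hw0 hL f) (hol_refl (hol_mu hw0 hL f) s) (mu_nonneg hw0 f)
      (mu_nonneg hw0 f) (fun _ => mu_nonneg hw0 f _) fun _ => mu_nonneg hw0 f _)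
    (ce_mono s y) (ce_mono s z)
  rw [tsum_nu_ce, zero_mul] at h1
  have hN0 : 0 ≤ ∑' h, nu w m f s h := tsum_nonneg (nu_nonneg hw0 f s)
  rcases hN0.lt_or_eq with hpos | hzero
  · by_contra hneg
    push Not at hneg
    nlinarith
  · have h2 : ∀ h, nu w m f s h = 0 := by
      intro h
      have := (hN.hasSum_iff.2 hzero.symm)
      have h3 := (hasSum_zero_iff_of_nonneg (nu_nonneg hw0 f s)).1 this
      exact congrFun h3 h
    simp [h2]

/-- the change of variables to the sum and the first height -/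
def sumEquiv : (V → ℤ) × (V → ℤ) ≃ (V → ℤ) × (V → ℤ) where
  toFun q := (q.2, q.1 - q.2)
  invFun p := (p.1 + p.2, p.1)
  left_inv q := by
    ext v
    · simp
    · simp
  right_inv p := by
    ext v
    · simp
    · simp

omit [DecidableEq V] in
lemma gro2_dif (y z : V) : Gro2 fun p : (V → ℤ) × (V → ℤ) =>
    ((p.1 y : ℝ) - p.2 y) * ((p.1 z : ℝ) - p.2 z) :=
  (((Gro.coord y).fst.sub (Gro.coord y).snd).mul ((Gro.coord z).fst.sub (Gro.coord z).snd))

/-- **(K0)** two copies: for every nonnegative function of the sum of the heights -/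
theorem two_pos (hm : ∀ x, 0 < m x) (hw0 : ∀ h, 0 ≤ w h) (hwb : ∀ h, w h ≤ Wb)
    (hL : Hol w w) (f : V → ℝ) {F : (V → ℤ) → ℝ} (hF : ∀ s, 0 ≤ F s) (hFg : Gro F) (y z : V) :
    0 ≤ T2 w m f fun p => F (p.1 + p.2) * (((p.1 y : ℝ) - p.2 y) * ((p.1 z : ℝ) - p.2 z)) := by
  have hs := summable_two hm hw0 hwb f (hFg.sum.mul (gro2_dif y z))
  have hs' : Summable fun q : (V → ℤ) × (V → ℤ) => mu w m f (sumEquiv q).1 *
      mu w m f (sumEquiv q).2 * (F ((sumEquiv q).1 + (sumEquiv q).2) *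
        ((((sumEquiv q).1 y : ℝ) - (sumEquiv q).2 y) *
          (((sumEquiv q).1 z : ℝ) - (sumEquiv q).2 z))) :=
    (sumEquiv (V := V)).summable_iff.2 hs
  have h1 : (T2 w m f fun p => F (p.1 + p.2) *
      (((p.1 y : ℝ) - p.2 y) * ((p.1 z : ℝ) - p.2 z))) =
      ∑' q : (V → ℤ) × (V → ℤ), mu w m f (sumEquiv q).1 *
      mu w m f (sumEquiv q).2 * (F ((sumEquiv q).1 + (sumEquiv q).2) *
        ((((sumEquiv q).1 y : ℝ) - (sumEquiv q).2 y) *
          (((sumEquiv q).1 z : ℝ) - (sumEquiv q).2 z))) :=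
    ((sumEquiv (V := V)).tsum_eq fun p => mu w m f p.1 * mu w m f p.2 *
      (F (p.1 + p.2) * (((p.1 y : ℝ) - p.2 y) * ((p.1 z : ℝ) - p.2 z)))).symm
  rw [h1, Summable.tsum_prod hs']
  refine tsum_nonneg fun s => ?_
  have e1 : ∀ h : V → ℤ, mu w m f (sumEquiv (s, h)).1 * mu w m f (sumEquiv (s, h)).2 *
      (F ((sumEquiv (s, h)).1 + (sumEquiv (s, h)).2) *
        ((((sumEquiv (s, h)).1 y : ℝ) - (sumEquiv (s, h)).2 y) *
          (((sumEquiv (s, h)).1 z : ℝ) - (sumEquiv (s, h)).2 z))) =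
      F s * (nu w m f s h * (ce s y h * ce s z h)) := by
    intro h
    simp only [sumEquiv, Equiv.coe_fn_mk, add_sub_cancel, Pi.sub_apply, nu, ce]
    push_cast
    ring
  simp only [e1]
  rw [tsum_mul_left]
  exact mul_nonneg (hF s) (inner_nonneg hm hw0 hwb hL f s y z)

/-- the difference of a linear functional on the two copies -/
def dl (b : V → ℝ) (p : (V → ℤ) × (V → ℤ)) : ℝ := ln b p.1 - ln b p.2

omit [DecidableEq V] in
lemma dl_eq (b : V → ℝ) (p : (V → ℤ) × (V → ℤ)) :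
    dl b p = ∑ y, b y * ((p.1 y : ℝ) - p.2 y) := by
  unfold dl ln
  rw [← Finset.sum_sub_distrib]
  exact Finset.sum_congr rfl fun y _ => by ring

omit [DecidableEq V] in
lemma gro2_dl (b : V → ℝ) : Gro2 (dl b) := (Gro.ln b).fst.sub (Gro.ln b).snd

lemma T2_sum (hm : ∀ x, 0 < m x) (hw0 : ∀ h, 0 ≤ w h) (hwb : ∀ h, w h ≤ Wb) (f : V → ℝ)
    {ι : Type*} (S : Finset ι) {G : ι → (V → ℤ) × (V → ℤ) → ℝ} (hG : ∀ i ∈ S, Gro2 (G i)) :
    T2 w m f (fun p => ∑ i ∈ S, G i p) = ∑ i ∈ S, T2 w m f (G i) := by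
  unfold T2
  rw [← Summable.tsum_finsetSum fun i hi => summable_two hm hw0 hwb f (hG i hi)]
  exact tsum_congr fun p => by rw [Finset.mul_sum]

/-- **(K0)**, bilinear form -/
theorem two_pos_sum (hm : ∀ x, 0 < m x) (hw0 : ∀ h, 0 ≤ w h) (hwb : ∀ h, w h ≤ Wb)
    (hL : Hol w w) (f : V → ℝ) {F : (V → ℤ) → ℝ} (hF : ∀ s, 0 ≤ F s) (hFg : Gro F)
    {q : V → V → ℝ} (hq : ∀ y z, 0 ≤ q y z) :
    0 ≤ T2 w m f fun p => F (p.1 + p.2) *
      ∑ y, ∑ z, q y z * (((p.1 y : ℝ) - p.2 y) * ((p.1 z : ℝ) - p.2 z)) := by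
  have hg : ∀ y z, Gro2 fun p : (V → ℤ) × (V → ℤ) => q y z * (F (p.1 + p.2) *
      (((p.1 y : ℝ) - p.2 y) * ((p.1 z : ℝ) - p.2 z))) := fun y z =>
    ((Gro.const (q y z)).fst.mul (hFg.sum.mul (gro2_dif y z))).congr fun p => rfl
  have e1 : T2 w m f (fun p => F (p.1 + p.2) *
      ∑ y, ∑ z, q y z * (((p.1 y : ℝ) - p.2 y) * ((p.1 z : ℝ) - p.2 z))) =
      ∑ i : V × V, T2 w m f fun p => q i.1 i.2 * (F (p.1 + p.2) *
        (((p.1 i.1 : ℝ) - p.2 i.1) * ((p.1 i.2 : ℝ) - p.2 i.2))) := by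
    rw [← T2_sum hm hw0 hwb f Finset.univ fun i _ => hg i.1 i.2]
    refine T2_congr f fun p => ?_
    rw [← Finset.univ_product_univ, Finset.sum_product, Finset.mul_sum]
    refine Finset.sum_congr rfl fun y _ => ?_
    rw [Finset.mul_sum]
    exact Finset.sum_congr rfl fun z _ => by ring
  rw [e1]
  refine Finset.sum_nonneg fun i _ => ?_
  rw [T2_smul f (q i.1 i.2)]
  exact mul_nonneg (hq _ _) (two_pos hm hw0 hwb hL f hF hFg _ _)

end positivity

section cumulant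

variable [DecidableEq V] {w : (V → ℤ) → ℝ} {m : V → ℝ} {Wb : ℝ}

omit [DecidableEq V] in
lemma Ex_eq (f : V → ℝ) (Y : (V → ℤ) → ℝ) : Ex w m f Y = T1 w m f Y / Zr w m f := rfl

omit [DecidableEq V] in
lemma T1_one (f : V → ℝ) : T1 w m f (fun _ => 1) = Zr w m f := by
  unfold T1 Zr mu
  exact tsum_congr fun h => by ring

omit [DecidableEq V] in
lemma T1_congr (f : V → ℝ) {Y Y' : (V → ℤ) → ℝ} (h : ∀ k, Y k = Y' k) :
    T1 w m f Y = T1 w m f Y' := by
  have : Y = Y' := funext h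
  rw [this]

lemma T1_add (hm : ∀ x, 0 < m x) (hw0 : ∀ h, 0 ≤ w h) (hwb : ∀ h, w h ≤ Wb) (f : V → ℝ)
    {Y Y' : (V → ℤ) → ℝ} (hY : Gro Y) (hY' : Gro Y') :
    T1 w m f (fun k => Y k + Y' k) = T1 w m f Y + T1 w m f Y' := by
  unfold T1
  rw [← (summable_gro hm hw0 hwb f hY).tsum_add (summable_gro hm hw0 hwb f hY')]
  exact tsum_congr fun p => by ring

lemma T1_sub (hm : ∀ x, 0 < m x) (hw0 : ∀ h, 0 ≤ w h) (hwb : ∀ h, w h ≤ Wb) (f : V → ℝ)
    {Y Y' : (V → ℤ) → ℝ} (hY : Gro Y) (hY' : Gro Y') :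
    T1 w m f (fun k => Y k - Y' k) = T1 w m f Y - T1 w m f Y' := by
  unfold T1
  rw [← (summable_gro hm hw0 hwb f hY).tsum_sub (summable_gro hm hw0 hwb f hY')]
  exact tsum_congr fun p => by ring

omit [DecidableEq V] in
lemma T1_smul (f : V → ℝ) (c : ℝ) (Y : (V → ℤ) → ℝ) :
    T1 w m f (fun k => c * Y k) = c * T1 w m f Y := by
  unfold T1
  rw [← tsum_mul_left]
  exact tsum_congr fun p => by ring

lemma T1_mono (hm : ∀ x, 0 < m x) (hw0 : ∀ h, 0 ≤ w h) (hwb : ∀ h, w h ≤ Wb) (f : V → ℝ)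
    {Y Y' : (V → ℤ) → ℝ} (hY : Gro Y) (hY' : Gro Y') (hle : ∀ k, Y k ≤ Y' k) :
    T1 w m f Y ≤ T1 w m f Y' :=
  (summable_gro hm hw0 hwb f hY).tsum_le_tsum
    (fun h => mul_le_mul_of_nonneg_left (hle h) (mu_nonneg hw0 f h))
    (summable_gro hm hw0 hwb f hY')

/-- covariance of two linear functionals -/
noncomputable def cov (w : (V → ℤ) → ℝ) (m f b c : V → ℝ) : ℝ :=
  Ex w m f (fun h => ln b h * ln c h) - Ex w m f (ln b) * Ex w m f (ln c)

/-- third cumulant of three linear functionals -/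
noncomputable def k3 (w : (V → ℤ) → ℝ) (m f a b c : V → ℝ) : ℝ :=
  Ex w m f fun h => (ln a h - Ex w m f (ln a)) * (ln b h - Ex w m f (ln b)) *
    (ln c h - Ex w m f (ln c))

/-- two copies with a product weight -/
lemma T2_quad (hm : ∀ x, 0 < m x) (hw0 : ∀ h, 0 ≤ w h) (hwb : ∀ h, w h ≤ Wb) (f : V → ℝ)
    {X : (V → ℤ) → ℝ} (hX : Gro X) (b c : V → ℝ) :
    T2 w m f (fun p => X p.1 * X p.2 * (dl b p * dl c p)) =
      2 * (T1 w m f (fun h => X h * (ln b h * ln c h)) * T1 w m f X -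
        T1 w m f (fun h => X h * ln b h) * T1 w m f (fun h => X h * ln c h)) := by
  have hb : Gro fun h => X h * ln b h := hX.mul (Gro.ln b)
  have hc : Gro fun h => X h * ln c h := hX.mul (Gro.ln c)
  have hbc : Gro fun h => X h * (ln b h * ln c h) := hX.mul ((Gro.ln b).mul (Gro.ln c))
  have g1 := hbc.prod hX
  have g2 := hb.prod hc
  have g3 := hc.prod hb
  have g4 := hX.prod hbc
  have e1 : T2 w m f (fun p => X p.1 * X p.2 * (dl b p * dl c p)) =
      T2 w m f (fun p => (X p.1 * (ln b p.1 * ln c p.1) * X p.2 -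
        X p.1 * ln b p.1 * (X p.2 * ln c p.2)) + (X p.1 * (X p.2 * (ln b p.2 * ln c p.2)) -
        X p.1 * ln c p.1 * (X p.2 * ln b p.2))) := by
    refine T2_congr f fun p => ?_
    unfold dl
    ring
  rw [e1, T2_add hm hw0 hwb f (g1.sub g2) (g4.sub g3), T2_sub hm hw0 hwb f g1 g2,
    T2_sub hm hw0 hwb f g4 g3, T2_prod hm hw0 hwb f hbc hX, T2_prod hm hw0 hwb f hb hc,
    T2_prod hm hw0 hwb f hX hbc, T2_prod hm hw0 hwb f hc hb]
  ring

lemma T2_dl (hm : ∀ x, 0 < m x) (hw0 : ∀ h, 0 ≤ w h) (hwb : ∀ h, w h ≤ Wb) (f : V → ℝ)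
    (hZ : 0 < Zr w m f) (b c : V → ℝ) :
    T2 w m f (fun p => dl b p * dl c p) = 2 * Zr w m f ^ 2 * cov w m f b c := by
  have h1 := T2_quad hm hw0 hwb f (Gro.const 1) b c
  simp only [one_mul, T1_one] at h1
  rw [h1]
  unfold cov
  rw [Ex_eq, Ex_eq, Ex_eq]
  field_simp

/-- the shifted background -/
noncomputable def sh (m f a : V → ℝ) (t : ℝ) : V → ℝ := fun x => f x + t * a x / m x

omit [DecidableEq V] in
lemma gr_tilt (hm : ∀ x, 0 < m x) (f a : V → ℝ) (t : ℝ) (h : V → ℤ) :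
    gr m h f * Real.exp (t * ln a h) =
      Real.exp (∑ x, (t * a x * f x + t ^ 2 * a x ^ 2 / (2 * m x))) * gr m h (sh m f a t) := by
  unfold gr ln sh
  rw [← Real.exp_add, ← Real.exp_add]
  congr 1
  rw [Finset.mul_sum, ← Finset.sum_neg_distrib, ← Finset.sum_neg_distrib,
    ← Finset.sum_add_distrib, ← Finset.sum_add_distrib]
  refine Finset.sum_congr rfl fun x _ => ?_
  have := (hm x).ne'
  field_simp
  ring

omit [DecidableEq V] in
lemma T1_tilt (hm : ∀ x, 0 < m x) (f a : V → ℝ) (t : ℝ) (Y : (V → ℤ) → ℝ) :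
    T1 w m f (fun h => Real.exp (t * ln a h) * Y h) =
      Real.exp (∑ x, (t * a x * f x + t ^ 2 * a x ^ 2 / (2 * m x))) *
        T1 w m (sh m f a t) Y := by
  unfold T1 mu
  rw [← tsum_mul_left]
  refine tsum_congr fun h => ?_
  have := gr_tilt hm f a t h
  calc w h * gr m h f * (Real.exp (t * ln a h) * Y h) =
        w h * (gr m h f * Real.exp (t * ln a h)) * Y h := by ring
    _ = _ := by rw [this]; ring

/-- two copies, tilted by an exponential of the sum -/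
lemma T2_tilt (hm : ∀ x, 0 < m x) (hw0 : ∀ h, 0 ≤ w h) (hwb : ∀ h, w h ≤ Wb) (f : V → ℝ)
    (hZ : ∀ f, 0 < Zr w m f) (a b c : V → ℝ) (t : ℝ) :
    T2 w m f (fun p => Real.exp (t * ln a p.1) * Real.exp (t * ln a p.2) * (dl b p * dl c p)) =
      2 * Zr w m f ^ 2 * (Ex w m f (fun h => Real.exp (t * ln a h)) ^ 2 *
        cov w m (sh m f a t) b c) := by
  have h1 := T2_quad hm hw0 hwb f (Gro.exp_ln a t) b c
  rw [h1]
  have e1 := T1_tilt (w := w) hm f a t fun h => ln b h * ln c h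
  have e2 := T1_tilt (w := w) hm f a t (ln b)
  have e3 := T1_tilt (w := w) hm f a t (ln c)
  have e4 : T1 w m f (fun h => Real.exp (t * ln a h)) =
      Real.exp (∑ x, (t * a x * f x + t ^ 2 * a x ^ 2 / (2 * m x))) * Zr w m (sh m f a t) := by
    have := T1_tilt (w := w) hm f a t fun _ => 1
    rw [T1_one] at this
    rw [← this]
    exact T1_congr f fun k => (mul_one _).symm
  have e5 : Ex w m f (fun h => Real.exp (t * ln a h)) =
      T1 w m f (fun h => Real.exp (t * ln a h)) / Zr w m f := rfl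
  rw [e1, e2, e3, e5, e4]
  unfold cov
  rw [Ex_eq, Ex_eq, Ex_eq]
  have hZ1 := (hZ f).ne'
  have hZ2 := (hZ (sh m f a t)).ne'
  field_simp

/-- two copies and the third cumulant -/
lemma T2_k3 (hm : ∀ x, 0 < m x) (hw0 : ∀ h, 0 ≤ w h) (hwb : ∀ h, w h ≤ Wb) (f : V → ℝ)
    (hZ : 0 < Zr w m f) (a b c : V → ℝ) :
    T2 w m f (fun p => (ln a (p.1 + p.2) - 2 * Ex w m f (ln a)) * (dl b p * dl c p)) =
      2 * Zr w m f ^ 2 * k3 w m f a b c := by
  set α := Ex w m f (ln a) with hα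
  set β := Ex w m f (ln b) with hβ
  set γ := Ex w m f (ln c) with hγ
  have cen : ∀ a : V → ℝ, T1 w m f (fun h => ln a h - Ex w m f (ln a)) = 0 := by
    intro a
    have e : T1 w m f (fun h => ln a h - Ex w m f (ln a)) =
        T1 w m f (ln a) - T1 w m f (fun _ => Ex w m f (ln a)) :=
      T1_sub hm hw0 hwb f (Gro.ln a) (Gro.const _)
    have e' : T1 w m f (fun _ => Ex w m f (ln a)) = Ex w m f (ln a) * Zr w m f := by
      rw [← T1_one, ← T1_smul]
      exact T1_congr f fun k => (mul_one _).symm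
    rw [e, e', Ex_eq]
    field_simp
    ring
  have ca := cen a
  have cb := cen b
  have cc := cen c
  rw [← hα] at ca
  rw [← hβ] at cb
  rw [← hγ] at cc
  have hA : Gro fun h => ln a h - α := (Gro.ln a).sub (Gro.const α)
  have hB : Gro fun h => ln b h - β := (Gro.ln b).sub (Gro.const β)
  have hC : Gro fun h => ln c h - γ := (Gro.ln c).sub (Gro.const γ)
  have hAB := hA.mul hB
  have hAC := hA.mul hC
  have hBC := hB.mul hC
  have hABC := hAB.mul hC
  have h1 := Gro.const (V := V) 1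
  have g1 := hABC.prod h1
  have g2 := hAB.prod hC
  have g3 := hAC.prod hB
  have g4 := hA.prod hBC
  have g5 := hBC.prod hA
  have g6 := hB.prod hAC
  have g7 := hC.prod hAB
  have g8 := h1.prod hABC
  have e1 : T2 w m f (fun p => (ln a (p.1 + p.2) - 2 * α) * (dl b p * dl c p)) =
      T2 w m f (fun p => ((((ln a p.1 - α) * (ln b p.1 - β) * (ln c p.1 - γ) * 1 -
          (ln a p.1 - α) * (ln b p.1 - β) * (ln c p.2 - γ)) +
        ((ln a p.1 - α) * ((ln b p.2 - β) * (ln c p.2 - γ)) -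
          (ln a p.1 - α) * (ln c p.1 - γ) * (ln b p.2 - β))) +
        (((ln b p.1 - β) * (ln c p.1 - γ) * (ln a p.2 - α) -
          (ln b p.1 - β) * ((ln a p.2 - α) * (ln c p.2 - γ))) +
        (1 * ((ln a p.2 - α) * (ln b p.2 - β) * (ln c p.2 - γ)) -
          (ln c p.1 - γ) * ((ln a p.2 - α) * (ln b p.2 - β)))))) := by
    refine T2_congr f fun p => ?_
    unfold dl
    rw [ln_add]
    ring
  rw [e1, T2_add hm hw0 hwb f ((g1.sub g2).add (g4.sub g3)) ((g5.sub g6).add (g8.sub g7)),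
    T2_add hm hw0 hwb f (g1.sub g2) (g4.sub g3), T2_add hm hw0 hwb f (g5.sub g6) (g8.sub g7),
    T2_sub hm hw0 hwb f g1 g2, T2_sub hm hw0 hwb f g4 g3, T2_sub hm hw0 hwb f g5 g6,
    T2_sub hm hw0 hwb f g8 g7, T2_prod hm hw0 hwb f hABC h1, T2_prod hm hw0 hwb f hAB hC,
    T2_prod hm hw0 hwb f hAC hB, T2_prod hm hw0 hwb f hA hBC, T2_prod hm hw0 hwb f hBC hA,
    T2_prod hm hw0 hwb f hB hAC, T2_prod hm hw0 hwb f hC hAB, T2_prod hm hw0 hwb f h1 hABC,
    ca, cb, cc, T1_one]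
  unfold k3
  rw [← hα, ← hβ, ← hγ, Ex_eq]
  field_simp
  ring

end cumulant

section bound

variable [DecidableEq V] {w : (V → ℤ) → ℝ} {m : V → ℝ} {Wb D : ℝ}

lemma sq_le_of_forall {X P Q : ℝ} (hP : 0 ≤ P) (hQ : 0 ≤ Q)
    (h : ∀ l : ℝ, 2 * l * X ≤ P + l ^ 2 * Q) : X ^ 2 ≤ P * Q := by
  rcases hQ.lt_or_eq with hpos | hzero
  · have h1 := h (X / Q)
    have e1 : 2 * (X / Q) * X = 2 * X ^ 2 / Q := by ring
    have e2 : (X / Q) ^ 2 * Q = X ^ 2 / Q := by field_simp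
    rw [e1, e2] at h1
    have h2 : X ^ 2 / Q ≤ P := by
      have : 2 * X ^ 2 / Q = X ^ 2 / Q + X ^ 2 / Q := by ring
      linarith
    rwa [div_le_iff₀ hpos] at h2
  · rw [← hzero] at h ⊢
    by_cases hX : X = 0
    · rw [hX]
      simp
    · exfalso
      have h1 := h ((P + 1) / (2 * X))
      have e1 : 2 * ((P + 1) / (2 * X)) * X = P + 1 := by field_simp
      rw [e1] at h1
      simp only [mul_zero, add_zero] at h1
      linarith

lemma sq_le_exp (u : ℝ) : u ^ 2 ≤ Real.exp u + Real.exp (-u) := by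
  have key : ∀ v : ℝ, 0 ≤ v → v ^ 2 ≤ Real.exp v + Real.exp (-v) := by
    intro v hv
    have h1 : v / 2 ≤ Real.sinh (v / 2) := Real.self_le_sinh_iff.2 (by linarith)
    have h2 : Real.exp v + Real.exp (-v) = 2 + (2 * Real.sinh (v / 2)) ^ 2 := by
      rw [Real.sinh_eq]
      have e1 : Real.exp v = Real.exp (v / 2) * Real.exp (v / 2) := by
        rw [← Real.exp_add]
        ring_nf
      have e2 : Real.exp (-v) = Real.exp (-(v / 2)) * Real.exp (-(v / 2)) := by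
        rw [← Real.exp_add]
        ring_nf
      have e3 : Real.exp (v / 2) * Real.exp (-(v / 2)) = 1 := by
        rw [← Real.exp_add]
        simp
      rw [e1, e2]
      nlinarith [e3]
    have h3 : v ^ 2 ≤ (2 * Real.sinh (v / 2)) ^ 2 := by
      have : v ≤ 2 * Real.sinh (v / 2) := by linarith
      nlinarith
    linarith
  rcases le_total 0 u with h | h
  · exact key u h
  · have := key (-u) (by linarith)
    rw [neg_neg] at this
    nlinarith

omit [DecidableEq V] in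
lemma dl_mul (b c : V → ℝ) (p : (V → ℤ) × (V → ℤ)) :
    dl b p * dl c p =
      ∑ y, ∑ z, b y * c z * (((p.1 y : ℝ) - p.2 y) * ((p.1 z : ℝ) - p.2 z)) := by
  rw [dl_eq, dl_eq, Finset.sum_mul_sum]
  exact Finset.sum_congr rfl fun y _ => Finset.sum_congr rfl fun z _ => by ring

omit [DecidableEq V] in
lemma gro2_dd (b c : V → ℝ) : Gro2 fun p => dl b p * dl c p := (gro2_dl b).mul (gro2_dl c)

/-- domination by the absolute values -/
lemma T2_abs (hm : ∀ x, 0 < m x) (hw0 : ∀ h, 0 ≤ w h) (hwb : ∀ h, w h ≤ Wb)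
    (hL : Hol w w) (f : V → ℝ) {F : (V → ℤ) → ℝ} (hF : ∀ s, 0 ≤ F s) (hFg : Gro F)
    (b c : V → ℝ) :
    |T2 w m f fun p => F (p.1 + p.2) * (dl b p * dl c p)| ≤
      T2 w m f fun p => F (p.1 + p.2) * (dl (fun x => |b x|) p * dl (fun x => |c x|) p) := by
  have g1 := hFg.sum.mul (gro2_dd b c)
  have g2 := hFg.sum.mul (gro2_dd (fun x => |b x|) fun x => |c x|)
  have h1 := two_pos_sum hm hw0 hwb hL f hF hFg (q := fun y z => |b y| * |c z| - b y * c z)
    fun y z => by rw [← abs_mul]; linarith [le_abs_self (b y * c z)]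
  have h2 := two_pos_sum hm hw0 hwb hL f hF hFg (q := fun y z => |b y| * |c z| + b y * c z)
    fun y z => by rw [← abs_mul]; linarith [neg_abs_le (b y * c z)]
  have e1 : (T2 w m f fun p => F (p.1 + p.2) * ∑ y, ∑ z, (|b y| * |c z| - b y * c z) *
      (((p.1 y : ℝ) - p.2 y) * ((p.1 z : ℝ) - p.2 z))) =
      (T2 w m f fun p => F (p.1 + p.2) * (dl (fun x => |b x|) p * dl (fun x => |c x|) p)) -
        T2 w m f fun p => F (p.1 + p.2) * (dl b p * dl c p) := by
    rw [← T2_sub hm hw0 hwb f g2 g1]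
    refine T2_congr f fun p => ?_
    rw [dl_mul, dl_mul, ← mul_sub, ← Finset.sum_sub_distrib]
    congr 1
    refine Finset.sum_congr rfl fun y _ => ?_
    rw [← Finset.sum_sub_distrib]
    exact Finset.sum_congr rfl fun z _ => by ring
  have e2 : (T2 w m f fun p => F (p.1 + p.2) * ∑ y, ∑ z, (|b y| * |c z| + b y * c z) *
      (((p.1 y : ℝ) - p.2 y) * ((p.1 z : ℝ) - p.2 z))) =
      (T2 w m f fun p => F (p.1 + p.2) * (dl (fun x => |b x|) p * dl (fun x => |c x|) p)) +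
        T2 w m f fun p => F (p.1 + p.2) * (dl b p * dl c p) := by
    rw [← T2_add hm hw0 hwb f g2 g1]
    refine T2_congr f fun p => ?_
    rw [dl_mul, dl_mul, ← mul_add, ← Finset.sum_add_distrib]
    congr 1
    refine Finset.sum_congr rfl fun y _ => ?_
    rw [← Finset.sum_add_distrib]
    exact Finset.sum_congr rfl fun z _ => by ring
  rw [e1] at h1
  rw [e2] at h2
  rw [abs_le]
  constructor <;> linarith

/-- the centred exponential moment -/
noncomputable def mg (w : (V → ℤ) → ℝ) (m f a : V → ℝ) (t : ℝ) : ℝ :=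
  Real.exp (-(t * Ex w m f (ln a))) * Ex w m f fun h => Real.exp (t * ln a h)

/-- **(K1)** the third cumulant in an arbitrary real background -/
theorem k3_sq_le (hm : ∀ x, 0 < m x) (hw0 : ∀ h, 0 ≤ w h) (hwb : ∀ h, w h ≤ Wb)
    (hL : Hol w w) (hZ : ∀ f, 0 < Zr w m f) (f a b c : V → ℝ) {t : ℝ} (ht : 0 < t) :
    k3 w m f a b c ^ 2 ≤
      1 / t ^ 2 * (mg w m f a t ^ 2 * cov w m (sh m f a t) (fun x => |b x|) (fun x => |c x|) +
        mg w m f a (-t) ^ 2 * cov w m (sh m f a (-t)) (fun x => |b x|) (fun x => |c x|)) *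
      cov w m f (fun x => |b x|) (fun x => |c x|) := by
  set b' : V → ℝ := fun x => |b x| with hb'
  set c' : V → ℝ := fun x => |c x| with hc'
  set α := Ex w m f (ln a) with hα
  set Z := Zr w m f with hZdef
  have hZ0 : 0 < Z := hZ f
  have gx : Gro fun s : V → ℤ => ln a s - 2 * α := (Gro.ln a).sub (Gro.const _)
  -- the three quantities
  set X := T2 w m f fun p => (ln a (p.1 + p.2) - 2 * α) * (dl b p * dl c p) with hX
  set P := T2 w m f fun p => (ln a (p.1 + p.2) - 2 * α) ^ 2 * (dl b' p * dl c' p) with hP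
  set Q := T2 w m f fun p => dl b' p * dl c' p with hQ
  have hX' : X = 2 * Z ^ 2 * k3 w m f a b c := T2_k3 hm hw0 hwb f hZ0 a b c
  have hQ' : Q = 2 * Z ^ 2 * cov w m f b' c' := T2_dl hm hw0 hwb f hZ0 b' c'
  have hP0 : 0 ≤ P := by
    refine (abs_nonneg _).trans (T2_abs hm hw0 hwb hL f (F := fun s => (ln a s - 2 * α) ^ 2)
      (fun s => sq_nonneg _) (gx.pow 2) b c)
  have hQ0 : 0 ≤ Q := by
    have h1 := T2_abs hm hw0 hwb hL f (F := fun _ => (1 : ℝ)) (fun s => zero_le_one)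
      (Gro.const 1) b c
    simp only [one_mul] at h1
    exact (abs_nonneg _).trans h1
  -- Cauchy-Schwarz
  have hCS : X ^ 2 ≤ P * Q := by
    refine sq_le_of_forall hP0 hQ0 fun l => ?_
    have gp : Gro fun s : V → ℤ => (ln a s - 2 * α + l) ^ 2 := (gx.add (Gro.const l)).pow 2
    have gm : Gro fun s : V → ℤ => (ln a s - 2 * α - l) ^ 2 := (gx.sub (Gro.const l)).pow 2
    have h1 := T2_abs hm hw0 hwb hL f (fun s => sq_nonneg (ln a s - 2 * α + l)) gp b c
    have h2 := T2_abs hm hw0 hwb hL f (fun s => sq_nonneg (ln a s - 2 * α - l)) gm b c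
    have e1 : (T2 w m f fun p => (ln a (p.1 + p.2) - 2 * α + l) ^ 2 * (dl b p * dl c p)) -
        (T2 w m f fun p => (ln a (p.1 + p.2) - 2 * α - l) ^ 2 * (dl b p * dl c p)) =
        4 * l * X := by
      rw [← T2_sub hm hw0 hwb f (gp.sum.mul (gro2_dd b c)) (gm.sum.mul (gro2_dd b c)), hX,
        ← T2_smul]
      exact T2_congr f fun p => by ring
    have e2 : (T2 w m f fun p => (ln a (p.1 + p.2) - 2 * α + l) ^ 2 * (dl b' p * dl c' p)) +
        (T2 w m f fun p => (ln a (p.1 + p.2) - 2 * α - l) ^ 2 * (dl b' p * dl c' p)) =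
        2 * P + 2 * l ^ 2 * Q := by
      rw [← T2_add hm hw0 hwb f (gp.sum.mul (gro2_dd b' c')) (gm.sum.mul (gro2_dd b' c')), hP,
        hQ, ← T2_smul, ← T2_smul, ← T2_add hm hw0 hwb f
          ((Gro.const 2).fst.mul ((gx.pow 2).sum.mul (gro2_dd b' c')))
          ((Gro.const (2 * l ^ 2)).fst.mul (gro2_dd b' c'))]
      exact T2_congr f fun p => by ring
    have h3 := (abs_le.1 h1).2
    have h4 := (abs_le.1 h2).1
    have h5 : 4 * l * X ≤ 2 * P + 2 * l ^ 2 * Q := by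
      rw [← e1, ← e2]
      linarith
    linarith
  -- the tilt
  have tilt : ∀ r : ℝ, (T2 w m f fun p => Real.exp (r * (ln a (p.1 + p.2) - 2 * α)) *
      (dl b' p * dl c' p)) = 2 * Z ^ 2 * (mg w m f a r ^ 2 * cov w m (sh m f a r) b' c') := by
    intro r
    have h1 := T2_tilt hm hw0 hwb f hZ a b' c' r
    have e1 : (T2 w m f fun p => Real.exp (r * (ln a (p.1 + p.2) - 2 * α)) *
        (dl b' p * dl c' p)) = Real.exp (-(r * α)) ^ 2 * T2 w m f fun p =>
          Real.exp (r * ln a p.1) * Real.exp (r * ln a p.2) * (dl b' p * dl c' p) := by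
      rw [← T2_smul]
      refine T2_congr f fun p => ?_
      have : Real.exp (r * (ln a (p.1 + p.2) - 2 * α)) =
          Real.exp (-(r * α)) ^ 2 * (Real.exp (r * ln a p.1) * Real.exp (r * ln a p.2)) := by
        rw [pow_two, ← Real.exp_add, ← Real.exp_add, ← Real.exp_add, ln_add]
        ring_nf
      rw [this]
      ring
    rw [e1, h1]
    unfold mg
    rw [← hα, ← hZdef]
    ring
  have hPle : t ^ 2 * P ≤ 2 * Z ^ 2 * (mg w m f a t ^ 2 * cov w m (sh m f a t) b' c' +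
      mg w m f a (-t) ^ 2 * cov w m (sh m f a (-t)) b' c') := by
    have ge : ∀ r : ℝ, Gro fun s : V → ℤ => Real.exp (r * (ln a s - 2 * α)) := by
      intro r
      refine ((Gro.const (Real.exp (-(r * (2 * α))))).mul (Gro.exp_ln a r)).congr fun k => ?_
      rw [← Real.exp_add]
      ring_nf
    have gF : Gro fun s : V → ℤ => Real.exp (t * (ln a s - 2 * α)) +
        Real.exp (-t * (ln a s - 2 * α)) - t ^ 2 * (ln a s - 2 * α) ^ 2 :=
      ((ge t).add (ge (-t))).sub ((Gro.const _).mul (gx.pow 2))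
    have h1 := T2_abs hm hw0 hwb hL f (F := fun s : V → ℤ => Real.exp (t * (ln a s - 2 * α)) +
        Real.exp (-t * (ln a s - 2 * α)) - t ^ 2 * (ln a s - 2 * α) ^ 2)
      (fun s => by
        have := sq_le_exp (t * (ln a s - 2 * α))
        rw [neg_mul]
        nlinarith) gF b c
    have h2 := (abs_nonneg _).trans h1
    have g1 := (ge t).sum.mul (gro2_dd b' c')
    have g2 := (ge (-t)).sum.mul (gro2_dd b' c')
    have g3 := (Gro.const (t ^ 2)).fst.mul ((gx.pow 2).sum.mul (gro2_dd b' c'))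
    have e1 : (T2 w m f fun p => (Real.exp (t * (ln a (p.1 + p.2) - 2 * α)) +
        Real.exp (-t * (ln a (p.1 + p.2) - 2 * α)) - t ^ 2 * (ln a (p.1 + p.2) - 2 * α) ^ 2) *
          (dl b' p * dl c' p)) =
        (T2 w m f fun p => Real.exp (t * (ln a (p.1 + p.2) - 2 * α)) * (dl b' p * dl c' p)) +
        (T2 w m f fun p => Real.exp (-t * (ln a (p.1 + p.2) - 2 * α)) * (dl b' p * dl c' p)) -
          t ^ 2 * P := by
      rw [hP, ← T2_smul, ← T2_add hm hw0 hwb f g1 g2, ← T2_sub hm hw0 hwb f (g1.add g2) g3]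
      exact T2_congr f fun p => by ring
    rw [e1, tilt t, tilt (-t)] at h2
    linarith
  have hfin : t ^ 2 * X ^ 2 ≤ (2 * Z ^ 2 * (mg w m f a t ^ 2 * cov w m (sh m f a t) b' c' +
      mg w m f a (-t) ^ 2 * cov w m (sh m f a (-t)) b' c')) * Q := by
    calc t ^ 2 * X ^ 2 ≤ t ^ 2 * (P * Q) := mul_le_mul_of_nonneg_left hCS (sq_nonneg _)
      _ = t ^ 2 * P * Q := by ring
      _ ≤ _ := mul_le_mul_of_nonneg_right hPle hQ0
  rw [hX', hQ'] at hfin
  have hZ4 : 0 < 4 * Z ^ 4 := by positivity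
  have ht2 : 0 < t ^ 2 := by positivity
  rw [show 1 / t ^ 2 * (mg w m f a t ^ 2 * cov w m (sh m f a t) b' c' +
      mg w m f a (-t) ^ 2 * cov w m (sh m f a (-t)) b' c') * cov w m f b' c' =
      ((mg w m f a t ^ 2 * cov w m (sh m f a t) b' c' +
      mg w m f a (-t) ^ 2 * cov w m (sh m f a (-t)) b' c') * cov w m f b' c') / t ^ 2 by ring,
    le_div_iff₀ ht2]
  refine le_of_mul_le_mul_left ?_ hZ4
  nlinarith [hfin]

/-- the covariance of functionals with nonnegative coefficients is nonnegative -/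
theorem cov_abs_nonneg (hm : ∀ x, 0 < m x) (hw0 : ∀ h, 0 ≤ w h) (hwb : ∀ h, w h ≤ Wb)
    (hL : Hol w w) (f b c : V → ℝ) (hZ : 0 < Zr w m f) :
    |cov w m f b c| ≤ cov w m f (fun x => |b x|) fun x => |c x| := by
  have h1 := T2_abs hm hw0 hwb hL f (F := fun _ => (1 : ℝ)) (fun s => zero_le_one)
    (Gro.const 1) b c
  simp only [one_mul] at h1
  rw [T2_dl hm hw0 hwb f hZ, T2_dl hm hw0 hwb f hZ, abs_mul,
    abs_of_pos (by positivity : 0 < 2 * Zr w m f ^ 2)] at h1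
  exact le_of_mul_le_mul_left h1 (by positivity)

/-- expectations are monotone -/
lemma Ex_mono (hm : ∀ x, 0 < m x) (hw0 : ∀ h, 0 ≤ w h) (hwb : ∀ h, w h ≤ Wb) (f : V → ℝ)
    (hZ : 0 < Zr w m f) {Y Y' : (V → ℤ) → ℝ} (hY : Gro Y) (hY' : Gro Y')
    (hle : ∀ k, Y k ≤ Y' k) : Ex w m f Y ≤ Ex w m f Y' := by
  rw [Ex_eq, Ex_eq]
  exact div_le_div_of_nonneg_right (T1_mono hm hw0 hwb f hY hY' hle) hZ.le

lemma Ex_add (hm : ∀ x, 0 < m x) (hw0 : ∀ h, 0 ≤ w h) (hwb : ∀ h, w h ≤ Wb) (f : V → ℝ)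
    {Y Y' : (V → ℤ) → ℝ} (hY : Gro Y) (hY' : Gro Y') :
    Ex w m f (fun k => Y k + Y' k) = Ex w m f Y + Ex w m f Y' := by
  rw [Ex_eq, Ex_eq, Ex_eq, T1_add hm hw0 hwb f hY hY']
  ring

lemma Ex_sub (hm : ∀ x, 0 < m x) (hw0 : ∀ h, 0 ≤ w h) (hwb : ∀ h, w h ≤ Wb) (f : V → ℝ)
    {Y Y' : (V → ℤ) → ℝ} (hY : Gro Y) (hY' : Gro Y') :
    Ex w m f (fun k => Y k - Y' k) = Ex w m f Y - Ex w m f Y' := by
  rw [Ex_eq, Ex_eq, Ex_eq, T1_sub hm hw0 hwb f hY hY']
  ring

omit [DecidableEq V] in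
lemma Ex_smul (f : V → ℝ) (c : ℝ) (Y : (V → ℤ) → ℝ) :
    Ex w m f (fun k => c * Y k) = c * Ex w m f Y := by
  rw [Ex_eq, Ex_eq, T1_smul]
  ring

omit [DecidableEq V] in
lemma Ex_const (f : V → ℝ) (hZ : 0 < Zr w m f) (c : ℝ) : Ex w m f (fun _ => c) = c := by
  have h1 : T1 w m f (fun _ => c) = c * T1 w m f fun _ => 1 := by
    rw [← T1_smul]
    exact T1_congr f fun k => (mul_one _).symm
  rw [Ex_eq, h1, T1_one]
  field_simp

/-- Jensen -/
lemma exp_mean_le (hm : ∀ x, 0 < m x) (hw0 : ∀ h, 0 ≤ w h) (hwb : ∀ h, w h ≤ Wb) (f : V → ℝ)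
    (hZ : 0 < Zr w m f) (a : V → ℝ) (t : ℝ) :
    Real.exp (t * Ex w m f (ln a)) ≤ Ex w m f fun h => Real.exp (t * ln a h) := by
  set α := Ex w m f (ln a) with hα
  have g1 : Gro fun h : V → ℤ => Real.exp (t * α) * (1 + t * (ln a h - α)) :=
    (Gro.const _).mul ((Gro.const 1).add ((Gro.const t).mul ((Gro.ln a).sub (Gro.const α))))
  have h1 := Ex_mono hm hw0 hwb f hZ g1 (Gro.exp_ln a t) fun k => by
    have h2 := Real.add_one_le_exp (t * (ln a k - α))
    have e1 : Real.exp (t * ln a k) = Real.exp (t * α) * Real.exp (t * (ln a k - α)) := by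
      rw [← Real.exp_add]
      ring_nf
    rw [e1]
    exact mul_le_mul_of_nonneg_left (by linarith) (Real.exp_pos _).le
  have e2 : (Ex w m f fun h => Real.exp (t * α) * (1 + t * (ln a h - α))) =
      Real.exp (t * α) := by
    rw [Ex_smul, Ex_add hm hw0 hwb f (Gro.const 1)
      ((Gro.const t).mul ((Gro.ln a).sub (Gro.const α))), Ex_const f hZ, Ex_smul,
      Ex_sub hm hw0 hwb f (Gro.ln a) (Gro.const α), Ex_const f hZ, ← hα]
    ring
  rwa [e2] at h1

lemma mg_le (hm : ∀ x, 0 < m x) (hw0 : ∀ h, 0 ≤ w h) (hwb : ∀ h, w h ≤ Wb) (f : V → ℝ)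
    (hZ : 0 < Zr w m f) (a : V → ℝ) (t : ℝ) :
    mg w m f a t ≤ (Ex w m f fun h => Real.exp (t * ln a h)) *
      Ex w m f fun h => Real.exp (-t * ln a h) := by
  have h1 := exp_mean_le hm hw0 hwb f hZ a (-t)
  have h2 : 0 ≤ Ex w m f fun h => Real.exp (t * ln a h) :=
    (Real.exp_pos _).le.trans (exp_mean_le hm hw0 hwb f hZ a t)
  unfold mg
  rw [neg_mul] at h1
  calc _ ≤ (Ex w m f fun h => Real.exp (-t * ln a h)) *
        Ex w m f fun h => Real.exp (t * ln a h) := mul_le_mul_of_nonneg_right h1 h2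
    _ = _ := mul_comm _ _

lemma one_le_mg (hm : ∀ x, 0 < m x) (hw0 : ∀ h, 0 ≤ w h) (hwb : ∀ h, w h ≤ Wb) (f : V → ℝ)
    (hZ : 0 < Zr w m f) (a : V → ℝ) (t : ℝ) : 1 ≤ mg w m f a t := by
  have h1 := exp_mean_le hm hw0 hwb f hZ a t
  unfold mg
  calc (1 : ℝ) = Real.exp (-(t * Ex w m f (ln a))) * Real.exp (t * Ex w m f (ln a)) := by
        rw [← Real.exp_add]
        simp
    _ ≤ _ := mul_le_mul_of_nonneg_left h1 (Real.exp_pos _).le

/-- the bound (E1): two copies have Gaussian exponential moments, in every real background -/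
def E1 (w : (V → ℤ) → ℝ) (m : V → ℝ) (D : ℝ) : Prop :=
  ∀ f g : V → ℝ, (Ex w m f fun h => Real.exp (ln g h)) * (Ex w m f fun h => Real.exp (-ln g h)) ≤
    Real.exp (D + ∑ x, g x ^ 2 / m x)

lemma E1.mg (hE : E1 w m D) (hm : ∀ x, 0 < m x) (hw0 : ∀ h, 0 ≤ w h) (hwb : ∀ h, w h ≤ Wb)
    (f : V → ℝ) (hZ : 0 < Zr w m f) (a : V → ℝ) (t : ℝ) (ha : t ^ 2 * ∑ x, a x ^ 2 / m x ≤ 1) :
    mg w m f a t ≤ Real.exp (D + 1) := by
  refine (mg_le hm hw0 hwb f hZ a t).trans ?_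
  have h1 := hE f fun x => t * a x
  have e1 : ∀ h : V → ℤ, ln (fun x => t * a x) h = t * ln a h := by
    intro h
    unfold ln
    rw [Finset.mul_sum]
    exact Finset.sum_congr rfl fun x _ => by ring
  have e2 : ∑ x, (t * a x) ^ 2 / m x = t ^ 2 * ∑ x, a x ^ 2 / m x := by
    rw [Finset.mul_sum]
    exact Finset.sum_congr rfl fun x _ => by ring
  simp only [e1, e2] at h1
  simp only [neg_mul]
  refine h1.trans (Real.exp_le_exp.2 ?_)
  linarith

/-- variances -/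
lemma E1.var (hE : E1 w m D) (hm : ∀ x, 0 < m x) (hw0 : ∀ h, 0 ≤ w h) (hwb : ∀ h, w h ≤ Wb)
    (f : V → ℝ) (hZ : 0 < Zr w m f) (a : V → ℝ) {t : ℝ} (ht : 0 < t)
    (ha : t ^ 2 * ∑ x, a x ^ 2 / m x ≤ 1) :
    cov w m f a a ≤ 2 * Real.exp (D + 1) / t ^ 2 := by
  set α := Ex w m f (ln a) with hα
  have gx : Gro fun h : V → ℤ => ln a h - α := (Gro.ln a).sub (Gro.const _)
  have gax : Gro fun h : V → ℤ => ln a h * ln a h := (Gro.ln a).mul (Gro.ln a)
  have ge : ∀ r : ℝ, Gro fun s : V → ℤ => Real.exp (-(r * α)) * Real.exp (r * ln a s) :=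
    fun r => (Gro.const _).mul (Gro.exp_ln a r)
  have h1 := Ex_mono hm hw0 hwb f hZ ((Gro.const (t ^ 2)).mul (gx.pow 2))
    ((ge t).add (ge (-t))) fun k => by
      have h2 := sq_le_exp (t * (ln a k - α))
      have e1 : Real.exp (-(t * α)) * Real.exp (t * ln a k) = Real.exp (t * (ln a k - α)) := by
        rw [← Real.exp_add]
        ring_nf
      have e2 : Real.exp (-(-t * α)) * Real.exp (-t * ln a k) =
          Real.exp (-(t * (ln a k - α))) := by
        rw [← Real.exp_add]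
        ring_nf
      rw [e1, e2]
      calc t ^ 2 * (ln a k - α) ^ 2 = (t * (ln a k - α)) ^ 2 := by ring
        _ ≤ _ := h2
  have e3 : (Ex w m f fun h => (ln a h - α) ^ 2) = cov w m f a a := by
    have e4 : (Ex w m f fun h => (ln a h - α) ^ 2) =
        Ex w m f fun h => (ln a h * ln a h - 2 * α * ln a h) + α ^ 2 := by
      congr 1
      funext h
      ring
    rw [e4, Ex_add hm hw0 hwb f (gax.sub ((Gro.const _).mul (Gro.ln a))) (Gro.const _),
      Ex_sub hm hw0 hwb f gax ((Gro.const _).mul (Gro.ln a)), Ex_smul, Ex_const f hZ, ← hα]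
    unfold cov
    rw [← hα]
    ring
  rw [Ex_smul, Ex_add hm hw0 hwb f (ge t) (ge (-t)), Ex_smul, Ex_smul, e3] at h1
  have h5 := E1.mg hE hm hw0 hwb f hZ a t ha
  have h6 := E1.mg hE hm hw0 hwb f hZ a (-t) (by rwa [neg_sq])
  unfold H818.mg at h5 h6
  rw [← hα] at h5 h6
  rw [le_div_iff₀ (by positivity)]
  linarith

/-- covariances -/
lemma cov_le_half (hm : ∀ x, 0 < m x) (hw0 : ∀ h, 0 ≤ w h) (hwb : ∀ h, w h ≤ Wb)
    (f : V → ℝ) (hZ : 0 < Zr w m f) (b c : V → ℝ) :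
    cov w m f b c ≤ (cov w m f b b + cov w m f c c) / 2 := by
  set β := Ex w m f (ln b) with hβ
  set γ := Ex w m f (ln c) with hγ
  have gb := Gro.ln b
  have gc := Gro.ln c
  have h1 := Ex_mono hm hw0 hwb f hZ (Gro.const 0)
    (((gb.sub (Gro.const β)).sub (gc.sub (Gro.const γ))).pow 2) fun k => sq_nonneg _
  rw [Ex_const f hZ] at h1
  have e1 : (Ex w m f fun h => (ln b h - β - (ln c h - γ)) ^ 2) =
      Ex w m f fun h => ((ln b h * ln b h + ln c h * ln c h) +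
        ((-2) * (ln b h * ln c h) + (γ - β) ^ 2)) +
        (2 * (γ - β) * ln b h + (-(2 * (γ - β))) * ln c h) := by
    congr 1
    funext h
    ring
  have gbb := gb.mul gb
  have gcc := gc.mul gc
  have gbc := (Gro.const (V := V) (-2)).mul (gb.mul gc)
  have gk := Gro.const (V := V) ((γ - β) ^ 2)
  have g1 := (Gro.const (V := V) (2 * (γ - β))).mul gb
  have g2 := (Gro.const (V := V) (-(2 * (γ - β)))).mul gc
  rw [e1, Ex_add hm hw0 hwb f ((gbb.add gcc).add (gbc.add gk)) (g1.add g2),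
    Ex_add hm hw0 hwb f (gbb.add gcc) (gbc.add gk), Ex_add hm hw0 hwb f gbb gcc,
    Ex_add hm hw0 hwb f gbc gk, Ex_add hm hw0 hwb f g1 g2, Ex_smul, Ex_smul, Ex_smul,
    Ex_const f hZ, ← hβ, ← hγ] at h1
  unfold cov
  rw [← hβ, ← hγ]
  nlinarith [h1]

/-- **Row B5**: third cumulants in every real background.  `a, b, c` are bounded by `1` on blocks
of volume `1 / ε`, `m = t = ε`. -/
theorem k3_bound (hm : ∀ x, 0 < m x) (hw0 : ∀ h, 0 ≤ w h) (hwb : ∀ h, w h ≤ Wb)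
    (hL : Hol w w) (hZ : ∀ f, 0 < Zr w m f) {D : ℝ} (hE : E1 w m D) (f a b c : V → ℝ) {t : ℝ}
    (ht : 0 < t) (ha : t ^ 2 * ∑ x, a x ^ 2 / m x ≤ 1) (hb : t ^ 2 * ∑ x, b x ^ 2 / m x ≤ 1)
    (hc : t ^ 2 * ∑ x, c x ^ 2 / m x ≤ 1) :
    k3 w m f a b c ^ 2 ≤ 4 * Real.exp (3 * (D + 1)) / t ^ 4 *
      cov w m f (fun x => |b x|) fun x => |c x| := by
  have h1 := k3_sq_le hm hw0 hwb hL hZ f a b c ht
  set b' : V → ℝ := fun x => |b x| with hb'
  set c' : V → ℝ := fun x => |c x| with hc'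
  have hQ0 : 0 ≤ cov w m f b' c' :=
    (abs_nonneg _).trans (cov_abs_nonneg hm hw0 hwb hL f b c (hZ f))
  have hb2 : t ^ 2 * ∑ x, b' x ^ 2 / m x ≤ 1 := by simpa only [hb', sq_abs] using hb
  have hc2 : t ^ 2 * ∑ x, c' x ^ 2 / m x ≤ 1 := by simpa only [hc', sq_abs] using hc
  have hcov : ∀ f' : V → ℝ, cov w m f' b' c' ≤ 2 * Real.exp (D + 1) / t ^ 2 := by
    intro f'
    have e1 := cov_le_half hm hw0 hwb f' (hZ f') b' c'
    have e2 := E1.var hE hm hw0 hwb f' (hZ f') b' ht hb2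
    have e3 := E1.var hE hm hw0 hwb f' (hZ f') c' ht hc2
    linarith
  have hcov0 : ∀ f' : V → ℝ, 0 ≤ cov w m f' b' c' := fun f' =>
    (abs_nonneg _).trans (cov_abs_nonneg hm hw0 hwb hL f' b c (hZ f'))
  have hM : ∀ r : ℝ, r ^ 2 = t ^ 2 → mg w m f a r ^ 2 ≤ Real.exp (D + 1) ^ 2 := by
    intro r hr
    have e1 := E1.mg hE hm hw0 hwb f (hZ f) a r (by rw [hr]; exact ha)
    have e2 := one_le_mg hm hw0 hwb f (hZ f) a r
    nlinarith
  have hbr : mg w m f a t ^ 2 * cov w m (sh m f a t) b' c' +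
      mg w m f a (-t) ^ 2 * cov w m (sh m f a (-t)) b' c' ≤
      4 * Real.exp (D + 1) ^ 3 / t ^ 2 := by
    have e1 := mul_le_mul (hM t rfl) (hcov (sh m f a t)) (hcov0 _) (sq_nonneg _)
    have e2 := mul_le_mul (hM (-t) (neg_sq t)) (hcov (sh m f a (-t))) (hcov0 _) (sq_nonneg _)
    calc _ ≤ Real.exp (D + 1) ^ 2 * (2 * Real.exp (D + 1) / t ^ 2) +
          Real.exp (D + 1) ^ 2 * (2 * Real.exp (D + 1) / t ^ 2) := add_le_add e1 e2
      _ = _ := by ring
  refine h1.trans (mul_le_mul_of_nonneg_right ?_ hQ0)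
  calc 1 / t ^ 2 * (mg w m f a t ^ 2 * cov w m (sh m f a t) b' c' +
      mg w m f a (-t) ^ 2 * cov w m (sh m f a (-t)) b' c') ≤
        1 / t ^ 2 * (4 * Real.exp (D + 1) ^ 3 / t ^ 2) :=
        mul_le_mul_of_nonneg_left hbr (by positivity)
    _ = 4 * Real.exp (3 * (D + 1)) / t ^ 4 := by
        rw [show Real.exp (3 * (D + 1)) = Real.exp (D + 1) ^ 3 by
          rw [← Real.exp_nat_mul]; norm_num]
        field_simp

omit [DecidableEq V] in
lemma k3_swap12 (f a b c : V → ℝ) : k3 w m f a b c = k3 w m f b a c := by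
  unfold k3
  congr 1
  funext h
  ring

omit [DecidableEq V] in
lemma k3_swap23 (f a b c : V → ℝ) : k3 w m f a b c = k3 w m f a c b := by
  unfold k3
  congr 1
  funext h
  ring

end bound

end Vale.Agent.P159.TM.H818
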